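import Vale.Agent.P089.H821.Main

namespace Vale.Agent.Results.P089.ContinuumManyCounterexamples

open Vale.Agent.P089.BC
open scoped InnerProductSpace

/-- There are groups `G r`, one for each real number `r`, such that (3) the numbers `x r` are pairwise different,
the groups `G r` are pairwise not isomorphic, and each countable group contains copies of at most countably many of
them; and for each `r` the group `G r` is countable and finitely generated, the number `x r` is transcendental and
even a Liouville number, and (1) the assembly map `μ_0` of `G r` is not surjective; (2) the reduced group C*-algebra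
of `G r` contains a projection `P` with trace `x r` such that no multiple `m [P]`, `m ≥ 1`, of its class is in the
image of `μ_0`: the map `μ_0` is not even rationally surjective. -/
theorem result : ∃ (G : ℝ → Type) (_ : ∀ r, Group (G r)) (x : ℝ → ℝ), Function.Injective x ∧
    (∀ r s, r ≠ s → IsEmpty (G r ≃* G s)) ∧
    (∀ (Γ : Type) [Group Γ] [Countable Γ],
      {r | ∃ ι : G r →* Γ, Function.Injective ι}.Countable) ∧
    ∀ r, Countable (G r) ∧ Group.FG (G r) ∧ Transcendental ℚ (x r) ∧ Liouville (x r) ∧
      (∃ p : ℕ → G r →₀ ℚ, IsPlacement p) ∧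
      ∀ (H : Type) [NormedAddCommGroup H] [InnerProductSpace ℂ H] [CompleteSpace H]
        (E : Type) [NormedAddCommGroup E] [InnerProductSpace ℂ E] [CompleteSpace E]
        (b : HilbertBasis (G r) ℂ H) (c : HilbertBasis (G r × ℕ) ℂ E),
        (∀ p : ℕ → G r →₀ ℚ, IsPlacement p → ¬ AssemblySurjective b c p) ∧
        ∃ P ∈ CstarR b, P * P = P ∧ IsSelfAdjoint P ∧ ⟪b 1, P (b 1)⟫_ℂ = x r ∧
          ∀ p : ℕ → G r →₀ ℚ, IsPlacement p → ∀ m : ℕ, 1 ≤ m →
            ¬ InImage b c p (Matrix.diagonal fun _ : Fin m => P) :=
  final_many

end Vale.Agent.Results.P089.ContinuumManyCounterexamples
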