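import Vale.Agent.P089.H981.Main
import Vale.Agent.P089.H981.Def

namespace Vale.Agent.Results.P089.FinitelyGenerated

open Vale.Agent.P089.BC

/-- There is a finitely generated group `G`, the semidirect product of a normal subgroup `V` in which all squares
are trivial and a finitely generated subgroup `Q`, with the following properties. (1) The assembly map `μ_0` of `G` is
not surjective, and the reduced group C*-algebra of `G` contains a projection with irrational trace. (2) For every
countable group `N` and every surjective homomorphism `π : Γ → G × N` with finite kernel the C*-algebra of `Γ` contains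
a projection `P` with irrational trace such that no multiple `m [P]`, `m ≥ 1`, is in the image of `μ_0` of `Γ`: the
cokernel of `μ_0` is not a torsion group. -/
theorem result : ∃ (G : Type) (_ : Group G), Countable G ∧ Group.FG G ∧
    (∃ V Q : Subgroup G, V.Normal ∧ (∀ x ∈ V, x * x = 1) ∧ Q.FG ∧ V ⊓ Q = ⊥ ∧ V ⊔ Q = ⊤) ∧
    ((∃ p : ℕ → G →₀ ℚ, IsPlacement p) ∧
      ∀ (H : Type) [NormedAddCommGroup H] [InnerProductSpace ℂ H] [CompleteSpace H]
        (E : Type) [NormedAddCommGroup E] [InnerProductSpace ℂ E] [CompleteSpace E]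
        (b : HilbertBasis G ℂ H) (c : HilbertBasis (G × ℕ) ℂ E),
        (∀ p : ℕ → G →₀ ℚ, IsPlacement p → ¬ AssemblySurjective b c p) ∧ IrrationalTrace b) ∧
    (∀ (N : Type) [Group N] [Countable N] (Γ : Type) [Group Γ] (π : Γ →* G × N),
      Function.Surjective π → Finite π.ker → (∃ p : ℕ → Γ →₀ ℚ, IsPlacement p) ∧
      ∀ (H : Type) [NormedAddCommGroup H] [InnerProductSpace ℂ H] [CompleteSpace H]
        (E : Type) [NormedAddCommGroup E] [InnerProductSpace ℂ E] [CompleteSpace E]
        (b : HilbertBasis Γ ℂ H) (c : HilbertBasis (Γ × ℕ) ℂ E),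
        ∃ P ∈ CstarR b, P * P = P ∧ IsSelfAdjoint P ∧ IrrationalAt b P ∧
          ∀ p : ℕ → Γ →₀ ℚ, IsPlacement p → ∀ m : ℕ, 1 ≤ m →
            ¬ InImage b c p (Matrix.diagonal fun _ : Fin m => P)) :=
  final_fg

end Vale.Agent.Results.P089.FinitelyGenerated
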