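import Vale.Agent.P089.H499.Main

namespace Vale.Agent.Results.P089.NotRationallyOnto

open Vale.Agent.P089.BC
open scoped InnerProductSpace

/-- There is a countable group `G` with the following properties. (1) The assembly map `μ_0` of `G` is not
surjective, and the reduced group C*-algebra of `G` contains a projection with irrational trace. (2) For every
countable group `N` the C*-algebra of `G × N` contains a projection `P` with irrational trace such that no multiple
`m [P]`, `m ≥ 1`, is in the image of `μ_0`: the cokernel of `μ_0` is not a torsion group. (3) For every group `Γ`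
that contains a subgroup isomorphic to `G`, the C*-algebra of `Γ` contains a projection with irrational trace. -/
theorem result : ∃ (G : Type) (_ : Group G), Countable G ∧
    ((∃ p : ℕ → G →₀ ℚ, IsPlacement p) ∧
      ∀ (H : Type) [NormedAddCommGroup H] [InnerProductSpace ℂ H] [CompleteSpace H]
        (E : Type) [NormedAddCommGroup E] [InnerProductSpace ℂ E] [CompleteSpace E]
        (b : HilbertBasis G ℂ H) (c : HilbertBasis (G × ℕ) ℂ E),
        (∀ p : ℕ → G →₀ ℚ, IsPlacement p → ¬ AssemblySurjective b c p) ∧ IrrationalTrace b) ∧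
    (∀ (N : Type) [Group N] [Countable N], (∃ p : ℕ → (G × N) →₀ ℚ, IsPlacement p) ∧
      ∀ (H : Type) [NormedAddCommGroup H] [InnerProductSpace ℂ H] [CompleteSpace H]
        (E : Type) [NormedAddCommGroup E] [InnerProductSpace ℂ E] [CompleteSpace E]
        (b : HilbertBasis (G × N) ℂ H) (c : HilbertBasis ((G × N) × ℕ) ℂ E),
        ∃ P ∈ CstarR b, P * P = P ∧ IsSelfAdjoint P ∧
          (∃ x : ℝ, Irrational x ∧ ⟪b 1, P (b 1)⟫_ℂ = x) ∧
          ∀ p : ℕ → (G × N) →₀ ℚ, IsPlacement p → ∀ m : ℕ, 1 ≤ m →
            ¬ InImage b c p (Matrix.diagonal fun _ : Fin m => P)) ∧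
    (∀ (Γ : Type) [Group Γ] (ι : G →* Γ), Function.Injective ι →
      ∀ (H : Type) [NormedAddCommGroup H] [InnerProductSpace ℂ H] [CompleteSpace H]
        (b : HilbertBasis Γ ℂ H), IrrationalTrace b) :=
  final_prod

end Vale.Agent.Results.P089.NotRationallyOnto
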